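import Mathlib

/-!
# P162 pool job 397 (CV8), helper42 copy: a lower bound for a killed finite Markov chain

`K` is a stochastic matrix on a finite set, `P` a set of states, and the killed matrix multiplies
the rows of `K` in `P` by `1/2`.  If visits to `P` are separated by a gap `m0`, have probability at
most `β` at late times and at most `α` after a mixing time `s1` when started in `P`, then the killed
chain is in `P` at time `N` with probability at least `γ - α / 2 - N β ^ 2 / 2`, where `γ` bounds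
the unkilled probability from below.
-/

namespace Vale.Agent.Lib.P162.H42CV

open Finset BigOperators

theorem pow_entry_nonneg {S : Type*} [Fintype S] [DecidableEq S] (K : Matrix S S ℝ)
    (hK0 : ∀ a b, 0 ≤ K a b) : ∀ (n : ℕ) (a b : S), 0 ≤ (K ^ n) a b := by
  intro n
  induction n with
  | zero =>
    intro a b
    rw [pow_zero, Matrix.one_apply]
    split_ifs <;> norm_num
  | succ n ih =>
    intro a b
    rw [pow_succ', Matrix.mul_apply]
    exact Finset.sum_nonneg fun c _ => mul_nonneg (hK0 a c) (ih c b)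

theorem rowP_succ {S : Type*} [Fintype S] [DecidableEq S] (K : Matrix S S ℝ) (P : Finset S)
    (n : ℕ) (a : S) :
    ∑ b ∈ P, (K ^ (n + 1)) a b = ∑ c, K a c * ∑ b ∈ P, (K ^ n) c b := by
  have h1 : ∀ b, (K ^ (n + 1)) a b = ∑ c, K a c * (K ^ n) c b := by
    intro b
    rw [pow_succ', Matrix.mul_apply]
  rw [Finset.sum_congr rfl (fun b _ => h1 b), Finset.sum_comm]
  exact Finset.sum_congr rfl fun c _ => (Finset.mul_sum _ _ _).symm

theorem rowP_zero {S : Type*} [Fintype S] [DecidableEq S] (K : Matrix S S ℝ) (P : Finset S)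
    (a : S) : ∑ b ∈ P, (K ^ 0) a b = if a ∈ P then 1 else 0 := by
  rw [pow_zero]
  simp [Matrix.one_apply]

theorem visits {S : Type*} [Fintype S] [DecidableEq S] (K : Matrix S S ℝ)
    (hK0 : ∀ a b, 0 ≤ K a b) (hK1 : ∀ a, ∑ b, K a b = 1) (P : Finset S) (m0 : ℕ)
    (hgap : ∀ a ∈ P, ∀ s, 1 ≤ s → s ≤ m0 → ∑ b ∈ P, (K ^ s) a b = 0) :
    ∀ (m : ℕ), m ≤ m0 + 1 → ∀ a, ∑ i ∈ range m, ∑ b ∈ P, (K ^ i) a b ≤ 1 := by
  intro m
  induction m with
  | zero =>
    intro _ a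
    simp
  | succ m ih =>
    intro hm a
    rw [Finset.sum_range_succ', rowP_zero]
    by_cases ha : a ∈ P
    · rw [if_pos ha]
      have h0 : ∑ i ∈ range m, ∑ b ∈ P, (K ^ (i + 1)) a b = 0 := by
        refine Finset.sum_eq_zero fun i hi => ?_
        rw [Finset.mem_range] at hi
        exact hgap a ha (i + 1) (by omega) (by omega)
      rw [h0]
      norm_num
    · rw [if_neg ha, add_zero]
      have h2 : ∑ i ∈ range m, ∑ b ∈ P, (K ^ (i + 1)) a b
          = ∑ c, K a c * ∑ i ∈ range m, ∑ b ∈ P, (K ^ i) c b := by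
        rw [Finset.sum_congr rfl (fun i _ => rowP_succ K P i a), Finset.sum_comm]
        exact Finset.sum_congr rfl fun c _ => (Finset.mul_sum _ _ _).symm
      rw [h2]
      calc ∑ c, K a c * ∑ i ∈ range m, ∑ b ∈ P, (K ^ i) c b
          ≤ ∑ c, K a c * 1 := Finset.sum_le_sum fun c _ =>
            mul_le_mul_of_nonneg_left (ih (by omega) c) (hK0 a c)
        _ = 1 := by
          have h7 : ∑ c, K a c * 1 = ∑ c, K a c := Finset.sum_congr rfl fun c _ => mul_one _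
          rw [h7, hK1 a]

theorem killed_telescope {S : Type*} [Fintype S] [DecidableEq S] (K : Matrix S S ℝ)
    (hK0 : ∀ a b, 0 ≤ K a b) (P : Finset S) :
    ∀ (n : ℕ) (a : S),
      ∑ b ∈ P, (K ^ n) a b
        - ∑ b ∈ P, ((Matrix.of fun a b => (if a ∈ P then (1 / 2 : ℝ) else 1) * K a b) ^ n) a b
      ≤ (1 / 2) * ∑ i ∈ range n, ∑ π ∈ P, (K ^ i) a π * ∑ b ∈ P, (K ^ (n - i)) π b := by
  intro n
  induction n with
  | zero =>
    intro a
    simp
  | succ n ih =>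
    intro a
    have hKn := pow_entry_nonneg K hK0
    have hE : ∑ i ∈ range (n + 1), ∑ π ∈ P, (K ^ i) a π * ∑ b ∈ P, (K ^ (n + 1 - i)) π b
        = (if a ∈ P then ∑ b ∈ P, (K ^ (n + 1)) a b else 0)
          + ∑ c, K a c * ∑ i ∈ range n, ∑ π ∈ P, (K ^ i) c π * ∑ b ∈ P, (K ^ (n - i)) π b := by
      rw [Finset.sum_range_succ']
      have h0 : ∑ π ∈ P, (K ^ 0) a π * ∑ b ∈ P, (K ^ (n + 1 - 0)) π b
          = if a ∈ P then ∑ b ∈ P, (K ^ (n + 1)) a b else 0 := by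
        rw [pow_zero]
        simp [Matrix.one_apply]
      have h1 : ∑ i ∈ range n, ∑ π ∈ P, (K ^ (i + 1)) a π * ∑ b ∈ P, (K ^ (n + 1 - (i + 1))) π b
          = ∑ c, K a c * ∑ i ∈ range n, ∑ π ∈ P, (K ^ i) c π * ∑ b ∈ P, (K ^ (n - i)) π b := by
        have h2 : ∀ i ∈ range n,
            ∑ π ∈ P, (K ^ (i + 1)) a π * ∑ b ∈ P, (K ^ (n + 1 - (i + 1))) π b
            = ∑ c, K a c * ∑ π ∈ P, (K ^ i) c π * ∑ b ∈ P, (K ^ (n - i)) π b := by
          intro i _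
          have e : n + 1 - (i + 1) = n - i := by omega
          rw [e]
          have h3 : ∀ π ∈ P, (K ^ (i + 1)) a π * ∑ b ∈ P, (K ^ (n - i)) π b
              = ∑ c, K a c * ((K ^ i) c π * ∑ b ∈ P, (K ^ (n - i)) π b) := by
            intro π _
            rw [pow_succ', Matrix.mul_apply, Finset.sum_mul]
            exact Finset.sum_congr rfl fun c _ => mul_assoc _ _ _
          rw [Finset.sum_congr rfl h3, Finset.sum_comm]
          exact Finset.sum_congr rfl fun c _ => (Finset.mul_sum _ _ _).symm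
        rw [Finset.sum_congr rfl h2, Finset.sum_comm]
        exact Finset.sum_congr rfl fun c _ => (Finset.mul_sum _ _ _).symm
      rw [h0, h1, add_comm]
    have hEnn : ∀ c,
        0 ≤ ∑ i ∈ range n, ∑ π ∈ P, (K ^ i) c π * ∑ b ∈ P, (K ^ (n - i)) π b :=
      fun c => Finset.sum_nonneg fun i _ => Finset.sum_nonneg fun π _ =>
        mul_nonneg (hKn i c π) (Finset.sum_nonneg fun b _ => hKn (n - i) π b)
    have hKs := rowP_succ K P n a
    have hAs : ∑ b ∈ P,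
          ((Matrix.of fun a b => (if a ∈ P then (1 / 2 : ℝ) else 1) * K a b) ^ (n + 1)) a b
        = (if a ∈ P then (1 / 2 : ℝ) else 1) * ∑ c, K a c * ∑ b ∈ P,
            ((Matrix.of fun a b => (if a ∈ P then (1 / 2 : ℝ) else 1) * K a b) ^ n) c b := by
      rw [rowP_succ _ P n a, Finset.mul_sum]
      refine Finset.sum_congr rfl fun c _ => ?_
      rw [Matrix.of_apply, mul_assoc]
    have hXY : ∑ c, K a c * ∑ b ∈ P, (K ^ n) c b
          - ∑ c, K a c * ∑ b ∈ P,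
            ((Matrix.of fun a b => (if a ∈ P then (1 / 2 : ℝ) else 1) * K a b) ^ n) c b
        ≤ (1 / 2) * ∑ c, K a c *
            ∑ i ∈ range n, ∑ π ∈ P, (K ^ i) c π * ∑ b ∈ P, (K ^ (n - i)) π b := by
      rw [← Finset.sum_sub_distrib, Finset.mul_sum]
      refine Finset.sum_le_sum fun c _ => ?_
      have h4 := mul_le_mul_of_nonneg_left (ih c) (hK0 a c)
      calc K a c * ∑ b ∈ P, (K ^ n) c b - K a c * ∑ b ∈ P,
              ((Matrix.of fun a b => (if a ∈ P then (1 / 2 : ℝ) else 1) * K a b) ^ n) c b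
          = K a c * (∑ b ∈ P, (K ^ n) c b - ∑ b ∈ P,
              ((Matrix.of fun a b => (if a ∈ P then (1 / 2 : ℝ) else 1) * K a b) ^ n) c b) := by
            ring
        _ ≤ K a c * (1 / 2 * ∑ i ∈ range n, ∑ π ∈ P, (K ^ i) c π * ∑ b ∈ P, (K ^ (n - i)) π b) :=
            h4
        _ = 1 / 2 * (K a c *
              ∑ i ∈ range n, ∑ π ∈ P, (K ^ i) c π * ∑ b ∈ P, (K ^ (n - i)) π b) := by ring
    have hZ : 0 ≤ ∑ c, K a c *
        ∑ i ∈ range n, ∑ π ∈ P, (K ^ i) c π * ∑ b ∈ P, (K ^ (n - i)) π b :=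
      Finset.sum_nonneg fun c _ => mul_nonneg (hK0 a c) (hEnn c)
    rw [hE, hAs, hKs]
    by_cases ha : a ∈ P
    · rw [if_pos ha, if_pos ha]
      linarith
    · rw [if_neg ha, if_neg ha]
      linarith

theorem killed_lower {S : Type*} [Fintype S] [DecidableEq S] (K : Matrix S S ℝ)
    (hK0 : ∀ a b, 0 ≤ K a b) (hK1 : ∀ a, ∑ b, K a b = 1)
    (P : Finset S) (Gd : S → Prop) (hGd : ∀ a b, Gd a → K a b ≠ 0 → Gd b) (hPG : ∀ a ∈ P, Gd a)
    (m0 s1 N : ℕ) (α β γ : ℝ) (hα : 0 ≤ α) (hβ : 0 ≤ β)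
    (hgap : ∀ a ∈ P, ∀ s, 1 ≤ s → s ≤ m0 → ∑ b ∈ P, (K ^ s) a b = 0)
    (hlate : ∀ a, Gd a → ∀ s, m0 ≤ s → ∑ b ∈ P, (K ^ s) a b ≤ β)
    (hmix : ∀ a ∈ P, ∀ s, s1 ≤ s → ∑ b ∈ P, (K ^ s) a b ≤ α)
    (hN : s1 + m0 ≤ N) (σ : S) (hσ : Gd σ) (hγ : γ ≤ ∑ b ∈ P, (K ^ N) σ b) :
    γ - α / 2 - N * β ^ 2 / 2
      ≤ ∑ b ∈ P, ((Matrix.of fun a b => (if a ∈ P then (1 / 2 : ℝ) else 1) * K a b) ^ N) σ b := by
  have _hGd := hGd
  have hKn := pow_entry_nonneg K hK0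
  have htel := killed_telescope K hK0 P N σ
  have hf_nn : ∀ (i : ℕ) (a : S), 0 ≤ ∑ b ∈ P, (K ^ i) a b :=
    fun i a => Finset.sum_nonneg fun b _ => hKn i a b
  have hT : ∀ i ∈ range N, ∑ π ∈ P, (K ^ i) σ π * ∑ b ∈ P, (K ^ (N - i)) π b
      ≤ if i ≤ m0 then α * ∑ b ∈ P, (K ^ i) σ b else β ^ 2 := by
    intro i hi
    rw [Finset.mem_range] at hi
    split_ifs with him
    · rw [Finset.mul_sum]
      refine Finset.sum_le_sum fun π hπ => ?_
      rw [mul_comm α]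
      exact mul_le_mul_of_nonneg_left (hmix π hπ (N - i) (by omega)) (hKn i σ π)
    · have h1 : ∑ π ∈ P, (K ^ i) σ π * ∑ b ∈ P, (K ^ (N - i)) π b
          ≤ ∑ π ∈ P, (K ^ i) σ π * β := by
        refine Finset.sum_le_sum fun π hπ => ?_
        refine mul_le_mul_of_nonneg_left ?_ (hKn i σ π)
        by_cases h2 : N - i ≤ m0
        · rw [hgap π hπ (N - i) (by omega) h2]
          exact hβ
        · exact hlate π (hPG π hπ) (N - i) (by omega)
      have h3 : ∑ π ∈ P, (K ^ i) σ π * β = (∑ π ∈ P, (K ^ i) σ π) * β :=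
        (Finset.sum_mul _ _ _).symm
      have h4 : ∑ π ∈ P, (K ^ i) σ π ≤ β := hlate σ hσ i (by omega)
      calc ∑ π ∈ P, (K ^ i) σ π * ∑ b ∈ P, (K ^ (N - i)) π b
          ≤ (∑ π ∈ P, (K ^ i) σ π) * β := h3 ▸ h1
        _ ≤ β * β := mul_le_mul_of_nonneg_right h4 hβ
        _ = β ^ 2 := by ring
  have hA1 : ∑ i ∈ (range N).filter (fun i => i ≤ m0), α * ∑ b ∈ P, (K ^ i) σ b ≤ α := by
    rw [← Finset.mul_sum]
    have hsub : (range N).filter (fun i => i ≤ m0) ⊆ range (m0 + 1) := by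
      intro i hi
      rw [Finset.mem_filter] at hi
      rw [Finset.mem_range]
      omega
    have h5 : ∑ i ∈ (range N).filter (fun i => i ≤ m0), ∑ b ∈ P, (K ^ i) σ b
        ≤ ∑ i ∈ range (m0 + 1), ∑ b ∈ P, (K ^ i) σ b :=
      Finset.sum_le_sum_of_subset_of_nonneg hsub fun i _ _ => hf_nn i σ
    have h6 := visits K hK0 hK1 P m0 hgap (m0 + 1) le_rfl σ
    calc α * ∑ i ∈ (range N).filter (fun i => i ≤ m0), ∑ b ∈ P, (K ^ i) σ b
        ≤ α * 1 := mul_le_mul_of_nonneg_left (h5.trans h6) hα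
      _ = α := mul_one α
  have hA2 : ∑ i ∈ (range N).filter (fun i => ¬ i ≤ m0), β ^ 2 ≤ N * β ^ 2 := by
    rw [Finset.sum_const, nsmul_eq_mul]
    refine mul_le_mul_of_nonneg_right ?_ (sq_nonneg β)
    have hc : ((range N).filter (fun i => ¬ i ≤ m0)).card ≤ N := by
      calc ((range N).filter (fun i => ¬ i ≤ m0)).card ≤ (range N).card :=
            Finset.card_filter_le _ _
        _ = N := Finset.card_range N
    exact_mod_cast hc
  have hsum : ∑ i ∈ range N, ∑ π ∈ P, (K ^ i) σ π * ∑ b ∈ P, (K ^ (N - i)) π b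
      ≤ α + N * β ^ 2 := by
    calc ∑ i ∈ range N, ∑ π ∈ P, (K ^ i) σ π * ∑ b ∈ P, (K ^ (N - i)) π b
        ≤ ∑ i ∈ range N, (if i ≤ m0 then α * ∑ b ∈ P, (K ^ i) σ b else β ^ 2) :=
          Finset.sum_le_sum hT
      _ = ∑ i ∈ (range N).filter (fun i => i ≤ m0), α * ∑ b ∈ P, (K ^ i) σ b
          + ∑ i ∈ (range N).filter (fun i => ¬ i ≤ m0), β ^ 2 := by
          rw [Finset.sum_ite]
      _ ≤ α + N * β ^ 2 := add_le_add hA1 hA2
  linarith

example {S : Type*} [Fintype S] [DecidableEq S] (K : Matrix S S ℝ)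
    (hK0 : ∀ a b, 0 ≤ K a b) (hK1 : ∀ a, ∑ b, K a b = 1)
    (P : Finset S) (Gd : S → Prop) (hGd : ∀ a b, Gd a → K a b ≠ 0 → Gd b) (hPG : ∀ a ∈ P, Gd a)
    (m0 s1 N : ℕ) (α β γ : ℝ) (hα : 0 ≤ α) (hβ : 0 ≤ β)
    (hgap : ∀ a ∈ P, ∀ s, 1 ≤ s → s ≤ m0 → ∑ b ∈ P, (K ^ s) a b = 0)
    (hlate : ∀ a, Gd a → ∀ s, m0 ≤ s → ∑ b ∈ P, (K ^ s) a b ≤ β)
    (hmix : ∀ a ∈ P, ∀ s, s1 ≤ s → ∑ b ∈ P, (K ^ s) a b ≤ α)
    (hN : s1 + m0 ≤ N) (σ : S) (hσ : Gd σ) (hγ : γ ≤ ∑ b ∈ P, (K ^ N) σ b) :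
    γ - α / 2 - N * β ^ 2 / 2
      ≤ ∑ b ∈ P, ((Matrix.of fun a b => (if a ∈ P then (1 / 2 : ℝ) else 1) * K a b) ^ N) σ b :=
  killed_lower K hK0 hK1 P Gd hGd hPG m0 s1 N α β γ hα hβ hgap hlate hmix hN σ hσ hγ

end Vale.Agent.Lib.P162.H42CV
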